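import Mathlib

namespace Vale.Agent.Results.P038.LocallyAcyclic

open Finset

/-- First out-neighbourhood of `v` in the digraph with arc relation `r`. -/
def out1 {V : Type*} [Fintype V] (r : V → V → Prop) [DecidableRel r] (v : V) : Finset V :=
  univ.filter (fun u => r v u)

/-- Second out-neighbourhood of `v`: the vertices `w` other than `v`, not out-neighbours of `v`,
that are reached by a directed path `v → u → w`. -/
def out2 {V : Type*} [Fintype V] [DecidableEq V] (r : V → V → Prop) [DecidableRel r] (v : V) :
    Finset V :=
  univ.filter (fun w => w ≠ v ∧ ¬ r v w ∧ ∃ u, r v u ∧ r u w)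

/-- Core lemma: if `v → u`, the out-degree of `u` is at least that of `v`, and no out-neighbour
of `u` is an out-neighbour of `v`, then `v` satisfies Seymour's inequality. -/
theorem core {V : Type*} [Fintype V] [DecidableEq V] (r : V → V → Prop) [DecidableRel r]
    (hasym : ∀ u v, r u v → ¬ r v u) (v u : V) (hvu : r v u)
    (hdeg : (out1 r v).card ≤ (out1 r u).card) (hloc : ∀ w, r v w → ¬ r u w) :
    (out1 r v).card ≤ (out2 r v).card := by
  refine hdeg.trans (Finset.card_le_card ?_)
  intro w hw
  simp only [out1, mem_filter, mem_univ, true_and] at hw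
  simp only [out2, mem_filter, mem_univ, true_and]
  refine ⟨?_, ?_, u, hvu, hw⟩
  · rintro rfl
    exact hasym _ _ hvu hw
  · intro h
    exact hloc w h hw

theorem result (V : Type*) [Fintype V] [DecidableEq V]
    (r : V → V → Prop) [DecidableRel r]
    (hasym : ∀ u v, r u v → ¬ r v u)
    (v : V) (hmin : ∀ w, r v w → (out1 r v).card ≤ (out1 r w).card)
    (hacyc : ∀ a, ¬ Relation.TransGen (fun x y => r v x ∧ r v y ∧ r x y) a a) :
    (out1 r v).card ≤ (out2 r v).card := by
  by_cases hne : (out1 r v).Nonempty
  · -- find a sink of the digraph induced on the out-neighbourhood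
    let s : V → V → Prop := fun a b => Relation.TransGen (fun x y => r v x ∧ r v y ∧ r x y) b a
    have hwf : WellFounded s := by
      have : IsTrans V s := ⟨fun a b c hab hbc => Relation.TransGen.trans hbc hab⟩
      have : Std.Irrefl s := ⟨fun a => hacyc a⟩
      exact Finite.wellFounded_of_trans_of_irrefl s
    obtain ⟨u, hu, hmin'⟩ := hwf.has_min (↑(out1 r v) : Set V) hne
    have hvu : r v u := by
      have : u ∈ out1 r v := hu
      simpa [out1] using this
    refine core r hasym v u hvu (hmin u hvu) ?_
    intro w hvw huw
    have hw : w ∈ (↑(out1 r v) : Set V) := by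
      simp [out1, hvw]
    exact hmin' w hw (Relation.TransGen.single ⟨hvu, hvw, huw⟩)
  · rw [Finset.not_nonempty_iff_eq_empty] at hne
    rw [hne]
    simp

end Vale.Agent.Results.P038.LocallyAcyclic
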